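import Vale.Agent.P232.GapPair.Check

/-! # P232: certificate for one small axis, volumes in [3000000, 3080000] / 10^7 -/

namespace Vale.Agent.P232.GapPair.Bin3

/-- The interval of volumes. -/
def bin : VBin := ⟨3000000,3080000,9708345,9836932,9772636⟩

end Vale.Agent.P232.GapPair.Bin3
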