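import Vale.Agent.P232.GapPair.Bin3.Items0
import Vale.Agent.P232.GapPair.Bin3.Items1
import Vale.Agent.P232.GapPair.Bin3.Items2
import Vale.Agent.P232.GapPair.Bin3.Items3
import Vale.Agent.P232.GapPair.Bin3.Items4

/-! # P232: certificate for one small axis, the tree -/

namespace Vale.Agent.P232.GapPair.Bin3

/-- All items of the interval. -/
def items : List Item :=
  chunk0 ++ chunk1 ++ chunk2 ++ chunk3 ++ chunk4

def part0 : PTree := (.cutX 6750000 (.cutY 1060000 (.cutZ 1600000 (.cutZ 1200000 (.cutY 800000 (.cutZ 800000 (.pair 78 5 5) (.cutY 600000 (.pair 78 60 7) (.pair 78 29 7))) (.cutZ 800000 (.pair 78 7 60) (.cutY 900000 (.pair 78 19 7) (.pair 78 79 7)))) (.cutY 800000 (.cutY 600000 (.pair 78 28 8) (.pair 78 29 8)) (.cutY 900000 (.pair 78 80 8) (.cutZ 1400000 (.pair 78 79 33) (.cutY 1000000 (.pair 78 44 70) (.pair 78 31 70)))))) (.cutZ 2400000 (.cutY 800000 (.cutZ 2000000 (.cutY 600000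 (.pair 78 36 22) (.cutZ 1800000 (.pair 78 29 41) (.cutY 700000 (.pair 78 38 39) (.pair 78 81 39)))) (.cutY 600000 (.pair 78 36 40) (.cutZ 2200000 (.pair 78 37 82) (.pair 78 37 53)))) (.cutZ 2000000 (.cutY 900000 (.cutZ 1800000 (.pair 78 80 41) (.pair 78 83 67)) (.cutZ 1800000 (.cutY 1000000 (.pair 78 44 41) (.cutZ 1700000 (.pair 78 31 73) (.pair 78 74 50))) (.cutY 1000000 (.pair 78 72 67) (.pair 78 42 67)))) (.cutY 900000 (.pair 78 84 40) (.cutZ 2200000 (.cutY 1000000 (.pair 78 72 52) (.pair 78 42 52)) (.pair 78 85 53))))) (.cutY 800000 (.cutZ 2800000 (.cutY 600000 (.pair 78 36 55) (.pair 78 37 55)) (.pair 78 12 56)) (.pair 78 86 87)))) .graph) (.cutX 6800000 (.cutY 990000 (.cutZ 1600000 (.cutZ 1200000 (.cutY 800000 (.cutZ 800000 (.pair 88 5 5) (.cutY 600000 (.pair 88 60 7) (.pair 88 29 7))) (.cutZ 800000 (.pair 88 19 5) (.pair 88 89 7))) (.cutY 800000 (.cutY 600000 (.pair 88 28 8) (.pair 88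 29 8)) (.cutZ 1400000 (.pair 88 89 33) (.pair 88 19 70)))) (.cutZ 2400000 (.cutY 800000 (.cutZ 2000000 (.cutY 600000 (.pair 88 36 22) (.cutZ 1800000 (.pair 88 29 41) (.cutY 700000 (.pair 88 38 39) (.pair 88 81 39)))) (.cutY 600000 (.pair 88 36 40) (.cutZ 2200000 (.pair 88 37 82) (.pair 88 37 53)))) (.cutZ 2000000 (.cutZ 1800000 (.cutY 900000 (.pair 88 80 41) (.pair 88 44 41)) (.cutY 900000 (.pair 88 83 67) (.pair 88 72 67))) (.cutZ 2200000 (.cutY 900000 (.pair 88 84 82) (.pair 88 72 52)) (.pair 88 57 53)))) (.cutY 800000 (.cutZ 2800000 (.cutY 600000 (.pair 88 36 55) (.pair 88 37 55)) (.pair 88 12 56)) (.pair 88 57 87)))) .graph) (.cutX 6850000 (.cutY 910000 (.cutZ 1600000 (.cutZ 1200000 (.cutZ 800000 (.cutY 700000 (.pair 90 5 5) (.pair 90 91 5)) (.cutY 700000 (.pair 90 60 7) (.pair 90 91 7))) (.cutY 700000 (.pair 90 92 8) (.cutZ 1400000 (.pair 90 91 33) (.pair 90 93 70)))) (.cutZ 2400000 (.cutZ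 2000000 (.cutY 700000 (.cutZ 1800000 (.pair 90 92 41) (.pair 90 94 39)) (.cutZ 1800000 (.cutY 800000 (.pair 90 81 41) (.pair 90 95 41)) (.cutY 800000 (.pair 90 81 39) (.cutZ 1900000 (.pair 90 95 75) (.pair 90 96 76))))) (.cutY 700000 (.cutZ 2200000 (.pair 90 97 82) (.pair 90 97 53)) (.cutZ 2200000 (.cutY 800000 (.pair 90 81 82) (.pair 90 96 52)) (.cutY 800000 (.pair 90 81 53) (.pair 90 57 53))))) (.cutY 700000 (.pair 90 97 16) (.pair 90 98 16)))) .graph) (.cutX 6900000 (.cutY 810000 (.cutZ 1600000 (.cutZ 1200000 (.cutZ 800000 (.pair 99 100 5) (.cutY 600000 (.pair 99 92 7) (.pair 99 101 7))) (.cutY 600000 (.pair 99 92 8) (.cutZ 1400000 (.pair 99 101 33) (.pair 99 101 70)))) (.cutZ 2400000 (.cutZ 2000000 (.cutY 600000 (.pair 99 36 22) (.cutZ 1800000 (.cutY 700000 (.pair 99 29 41) (.pair 99 102 41)) (.cutY 700000 (.pair 99 38 39) (.pair 99 103 39)))) (.cutY 600000 (.pair 99 36 40) (.cutZ 2200000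 (.cutY 700000 (.pair 99 37 82) (.pair 99 103 82)) (.cutY 700000 (.pair 99 37 53) (.pair 99 103 53))))) (.cutZ 2800000 (.cutY 600000 (.pair 99 36 55) (.pair 99 104 55)) (.pair 99 105 56)))) .graph) (.cutX 6950000 (.cutY 710000 (.cutZ 1600000 (.cutZ 1200000 (.cutZ 800000 (.pair 106 5 5) (.pair 106 107 7)) (.pair 106 107 8)) (.cutZ 2400000 (.cutZ 2000000 (.cutZ 1800000 (.pair 106 107 108) (.cutY 600000 (.pair 106 36 39) (.pair 106 109 39))) (.cutZ 2200000 (.cutY 600000 (.pair 106 36 82) (.pair 106 109 82)) (.cutY 600000 (.pair 106 36 53) (.pair 106 37 53)))) (.cutZ 2800000 (.pair 106 110 55) (.pair 106 110 56)))) .graph) (.cutX 7000000 (.cutY 600000 (.cutZ 1600000 (.cutZ 1200000 (.cutZ 800000 (.pair 111 92 5) (.pair 111 92 7)) (.pair 111 92 8)) (.cutZ 2400000 (.cutZ 2000000 (.pair 111 36 22) (.pair 111 36 40)) (.pair 111 36 16))) .graph) .graph))))))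

def part1 : PTree := (.cutX 6600000 (.cutY 1180000 (.cutZ 1600000 (.cutY 800000 (.cutZ 1200000 (.cutZ 800000 (.pair 59 5 5) (.pair 59 60 7)) (.cutY 600000 (.pair 59 28 8) (.pair 59 29 8))) (.cutZ 1200000 (.cutZ 800000 (.pair 59 7 60) (.cutY 1000000 (.pair 59 19 7) (.cutZ 1000000 (.pair 59 9 19) (.pair 59 9 9)))) (.cutY 1000000 (.cutZ 1400000 (.pair 59 19 33) (.pair 59 19 32)) (.cutZ 1400000 (.pair 59 61 33) (.cutY 1100000 (.pair 59 31 32) (.pair 59 62 32)))))) (.cutZ 2400000 (.cutY 800000 (.cutZ 2000000 (.cutY 600000 (.pair 59 36 22) (.cutZ 1800000 (.pair 59 29 41) (.pair 59 38 39))) (.cutY 600000 (.pair 59 36 40) (.pair 59 37 40))) (.cutZ 2000000 (.cutY 1000000 (.cutZ 1800000 (.cutY 900000 (.pair 59 23 41) (.pair 59 44 41)) (.cutY 900000 (.pair 59 23 39) (.pair 59 44 43))) (.cutZ 1800000 (.cutY 1100000 (.cutZ 1700000 (.pair 59 31 46) (.pair 59 42 50)) (.cutZ 1700000 (.pair 59 62 46) (.pair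 59 49 50))) (.cutY 1100000 (.pair 59 42 43) (.pair 59 47 43)))) (.cutY 1000000 (.cutZ 2200000 (.pair 59 57 52) (.pair 59 57 53)) (.cutZ 2200000 (.pair 59 63 52) (.pair 59 63 53))))) (.cutY 800000 (.cutZ 2800000 (.cutY 600000 (.pair 59 36 55) (.pair 59 37 55)) (.pair 59 12 56)) (.cutZ 2800000 (.pair 59 64 65) (.pair 59 64 56))))) .graph) (.cutX 6650000 (.cutY 1150000 (.cutZ 1600000 (.cutZ 1200000 (.cutY 800000 (.cutZ 800000 (.pair 66 5 5) (.pair 66 60 7)) (.cutZ 800000 (.pair 66 7 60) (.cutY 1000000 (.pair 66 19 7) (.cutZ 1000000 (.pair 66 61 19) (.pair 66 61 9))))) (.cutY 800000 (.cutY 600000 (.pair 66 28 8) (.pair 66 29 8)) (.cutY 1000000 (.cutZ 1400000 (.pair 66 19 33) (.pair 66 19 32)) (.cutZ 1400000 (.pair 66 61 33) (.cutY 1100000 (.pair 66 31 32) (.pair 66 62 32)))))) (.cutZ 2400000 (.cutY 800000 (.cutZ 2000000 (.cutY 600000 (.pair 66 36 22) (.cutZ 1800000 (.pair 66 29 41) (.pair 66 38 39)))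 (.cutY 600000 (.pair 66 36 40) (.cutZ 2200000 (.pair 66 37 52) (.pair 66 37 53)))) (.cutZ 2000000 (.cutY 1000000 (.cutZ 1800000 (.cutY 900000 (.pair 66 23 41) (.pair 66 44 41)) (.cutY 900000 (.pair 66 23 39) (.pair 66 44 67))) (.cutZ 1800000 (.cutY 1100000 (.cutZ 1700000 (.pair 66 31 46) (.pair 66 42 50)) (.cutZ 1700000 (.pair 66 62 46) (.pair 66 49 50))) (.cutY 1100000 (.pair 66 42 67) (.pair 66 47 43)))) (.cutY 1000000 (.cutZ 2200000 (.cutY 900000 (.pair 66 57 52) (.pair 66 44 52)) (.pair 66 57 53)) (.cutZ 2200000 (.pair 66 63 52) (.pair 66 63 53))))) (.cutY 800000 (.cutZ 2800000 (.cutY 600000 (.pair 66 36 55) (.pair 66 37 55)) (.pair 66 12 56)) (.cutZ 2800000 (.pair 66 64 65) (.pair 66 64 56))))) .graph) (.cutX 6700000 (.cutY 1110000 (.cutZ 1600000 (.cutZ 1200000 (.cutY 800000 (.cutZ 800000 (.pair 68 5 5) (.cutY 600000 (.pair 68 60 7) (.pair 68 29 7))) (.cutZ 800000 (.pair 68 7 60) (.cutY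 1000000 (.pair 68 19 7) (.pair 68 69 7)))) (.cutY 800000 (.cutY 600000 (.pair 68 28 8) (.pair 68 29 8)) (.cutY 1000000 (.cutZ 1400000 (.pair 68 19 33) (.pair 68 19 70)) (.cutZ 1400000 (.pair 68 69 33) (.cutZ 1500000 (.pair 68 69 70) (.pair 68 71 34)))))) (.cutZ 2400000 (.cutY 800000 (.cutZ 2000000 (.cutY 600000 (.pair 68 36 22) (.cutZ 1800000 (.pair 68 29 41) (.pair 68 38 39))) (.cutY 600000 (.pair 68 36 40) (.cutZ 2200000 (.pair 68 37 52) (.pair 68 37 53)))) (.cutZ 2000000 (.cutY 1000000 (.cutZ 1800000 (.cutY 900000 (.pair 68 23 41) (.pair 68 44 41)) (.cutY 900000 (.pair 68 23 67) (.pair 68 72 67))) (.cutZ 1800000 (.cutZ 1700000 (.pair 68 71 73) (.pair 68 74 50)) (.cutZ 1900000 (.pair 68 74 75) (.pair 68 74 76)))) (.cutY 1000000 (.cutZ 2200000 (.cutY 900000 (.pair 68 57 52) (.pair 68 72 52)) (.pair 68 57 53)) (.cutZ 2200000 (.pair 68 63 52) (.pair 68 63 53))))) (.cutY 800000 (.cutZ 2800000 (.cutY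 600000 (.pair 68 36 55) (.pair 68 37 55)) (.pair 68 12 56)) (.cutZ 2800000 (.pair 68 77 65) (.pair 68 77 56))))) .graph) part0)))

def part2 : PTree := (.cutZ 1600000 (.cutY 800000 (.cutZ 1200000 (.cutX 6200000 (.cutZ 800000 (.pair 25 5 5) (.pair 25 5 7)) (.cutZ 800000 (.pair 26 5 5) (.pair 26 5 7))) (.cutX 6200000 (.pair 25 5 8) (.cutX 6400000 (.pair 27 28 8) (.cutY 600000 (.pair 26 28 8) (.pair 26 29 8))))) (.cutZ 1200000 (.cutX 6200000 (.cutY 1000000 (.cutZ 800000 (.pair 25 19 5) (.pair 25 19 7)) (.cutZ 800000 .empty (.pair 25 9 7))) (.cutY 1000000 (.cutZ 800000 (.pair 26 19 5) (.pair 26 19 7)) (.cutZ 800000 .empty (.cutX 6400000 (.cutY 1100000 (.pair 27 9 7) (.cutZ 1000000 .empty (.pair 27 9 9))) (.cutY 1100000 (.pair 26 30 7) (.cutZ 1000000 .empty (.pair 26 9 9))))))) (.cutX 6200000 (.cutY 1000000 (.pair 25 19 8) (.cutY 1100000 (.pair 25 31 8) (.cutZ 1400000 (.pair 25 21 11) (.pair 25 21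 32)))) (.cutY 1000000 (.cutX 6400000 (.cutZ 1400000 (.pair 27 19 8) (.pair 27 19 32)) (.cutZ 1400000 (.pair 26 19 8) (.pair 26 19 32))) (.cutX 6400000 (.cutY 1100000 (.cutZ 1400000 (.pair 27 30 8) (.pair 27 31 32)) (.cutZ 1400000 (.pair 27 21 33) (.pair 27 21 32))) (.cutY 1100000 (.cutZ 1400000 (.pair 26 30 33) (.pair 26 31 32)) (.cutZ 1400000 (.pair 26 21 33) (.cutX 6500000 (.cutY 1200000 (.cutZ 1500000 (.pair 26 21 32) (.pair 26 21 34)) (.pair 26 35 32)) (.cutY 1200000 (.cutZ 1500000 (.pair 26 21 32) (.pair 26 21 34)) (.pair 26 35 32)))))))))) (.cutZ 2400000 (.cutY 800000 (.cutX 6200000 (.cutZ 2000000 (.cutY 600000 (.pair 25 28 22) (.pair 25 29 22)) (.cutY 600000 (.pair 25 36 15) (.pair 25 37 15))) (.cutZ 2000000 (.cutX 6400000 (.cutY 600000 (.pair 27 36 22) (.pair 27 38 22)) (.cutY 600000 (.pair 26 36 22) (.cutZ 1800000 (.pair 26 29 22) (.pair 26 38 39)))) (.cutX 6400000 (.cutY 600000 (.pair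 27 36 15) (.pair 27 37 40)) (.cutY 600000 (.pair 26 36 40) (.pair 26 37 40))))) (.cutX 6200000 (.cutZ 2000000 (.cutY 1000000 (.cutZ 1800000 (.pair 25 23 41) (.pair 25 23 39)) (.cutY 1100000 (.pair 25 42 14) (.cutZ 1800000 (.pair 25 21 41) (.pair 25 21 43)))) (.cutY 1000000 (.pair 25 23 40) (.pair 25 24 15))) (.cutZ 2000000 (.cutY 1000000 (.cutX 6400000 (.cutZ 1800000 (.pair 27 23 41) (.pair 27 23 43)) (.cutZ 1800000 (.cutY 900000 (.pair 26 23 41) (.pair 26 44 41)) (.cutY 900000 (.pair 26 23 39) (.pair 26 44 43)))) (.cutX 6400000 (.cutY 1100000 (.cutZ 1800000 (.pair 27 42 41) (.pair 27 42 43)) (.cutZ 1800000 (.cutX 6300000 (.pair 45 21 46) (.cutY 1200000 (.pair 27 21 46) (.pair 27 35 46))) (.pair 27 47 43))) (.cutY 1100000 (.cutZ 1800000 (.pair 26 42 46) (.pair 26 42 43)) (.cutZ 1800000 (.cutX 6500000 (.cutY 1200000 (.pair 48 49 46) (.pair 48 35 46)) (.cutY 1200000 (.cutZ 1700000 (.pair 26 49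 46) (.pair 26 49 50)) (.pair 26 51 46))) (.cutX 6500000 (.pair 48 47 43) (.cutY 1200000 (.pair 26 47 43) (.pair 26 51 43))))))) (.cutY 1000000 (.cutX 6400000 (.cutZ 2200000 (.pair 27 23 52) (.pair 27 23 53)) (.cutZ 2200000 (.pair 26 23 52) (.pair 26 23 53))) (.cutX 6400000 (.cutY 1100000 (.pair 27 42 15) (.pair 27 47 15)) (.cutY 1100000 (.pair 26 42 15) (.pair 26 54 15))))))) (.cutY 800000 (.cutX 6200000 (.pair 25 12 16) (.cutZ 2800000 (.pair 26 12 55) (.pair 26 12 56))) (.cutX 6200000 (.pair 25 17 16) (.cutY 1000000 (.pair 26 57 16) (.pair 26 58 16))))))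

def tree : PTree := (.cutX 6550000 (.cutY 1250000 (.cutX 5600000 (.cutX 5200000 (.cutZ 1600000 (.pair 0 1 2) (.pair 0 1 3)) (.cutZ 1600000 (.cutY 800000 (.cutZ 1200000 (.cutZ 800000 (.pair 4 5 6) (.pair 4 5 7)) (.pair 4 5 8)) (.cutZ 1200000 (.cutY 1000000 (.cutZ 800000 (.pair 4 7 5) (.pair 4 7 7)) (.cutZ 800000 .empty (.pair 4 9 7))) (.pair 4 10 11))) (.cutZ 2400000 (.cutY 800000 (.pair 4 12 13) (.cutZ 2000000 (.pair 4 10 14) (.pair 4 10 15))) (.cutY 800000 (.pair 4 12 16) (.pair 4 17 16))))) (.cutX 6000000 (.cutZ 1600000 (.cutY 800000 (.cutZ 1200000 (.cutZ 800000 (.pair 18 5 5) (.pair 18 5 7)) (.pair 18 5 8)) (.cutZ 1200000 (.cutY 1000000 (.cutZ 800000 (.pair 18 7 5) (.pair 18 7 7)) (.cutZ 800000 .empty (.pair 18 9 7))) (.cutY 1000000 (.pair 18 19 8) (.cutX 5800000 (.pair 20 9 11) (.cutY 1100000 (.pair 18 9 8) (.pair 18 21 11)))))) (.cutZ 2400000 (.cutY 800000 (.cutZ 2000000 (.pair 18 12 22)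 (.pair 18 12 15)) (.cutZ 2000000 (.cutY 1000000 (.pair 18 23 14) (.pair 18 24 14)) (.cutY 1000000 (.pair 18 23 15) (.pair 18 24 15)))) (.cutY 800000 (.pair 18 12 16) (.pair 18 17 16)))) part2)) .graph) part1)

theorem tree_ok : PTree.ok bin items tree = true := by
  simp only [PTree.ok, Bool.and_eq_true]
  refine ⟨⟨by decide +kernel, ?_⟩, by decide +kernel⟩
  simp only [items, List.all_append, chunk0_ok, chunk1_ok, chunk2_ok, chunk3_ok, chunk4_ok, Bool.and_self]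

end Vale.Agent.P232.GapPair.Bin3
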